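import Vale.Agent.Lib.P170.Proper

set_option linter.unusedSectionVars false

namespace Vale.Agent.Lib.P170

open Finset

section Restrict

variable {k n' n : ℕ}

/-- An ordered proper clause on `n'` variables viewed as one on `n ≥ n'` variables. -/
def ocLE (hn : n' ≤ n) (c : OC k (Fin n')) : OC k (Fin n) :=
  ⟨fun i => (Fin.castLE hn (ocVal c i).1, (ocVal c i).2),
    fun _ _ h => c.2 (Fin.castLE_injective hn h)⟩

lemma ocLE_injective (hn : n' ≤ n) :
    Function.Injective (ocLE hn : OC k (Fin n') → OC k (Fin n)) := by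
  intro c d h
  apply Subtype.ext
  funext i
  have h1 : ocVal (ocLE hn c) i = ocVal (ocLE hn d) i := by rw [h]
  have h2 : Fin.castLE hn (ocVal c i).1 = Fin.castLE hn (ocVal d i).1 := by
    have := congrArg Prod.fst h1; exact this
  have h3 : (ocVal c i).2 = (ocVal d i).2 := by
    have := congrArg Prod.snd h1; exact this
  exact Prod.ext (Fin.castLE_injective hn h2) h3

/-- Restriction of an assignment to the first `n'` variables. -/
def resAsg (hn : n' ≤ n) (σ : Fin n → Bool) : Fin n' → Bool := fun v => σ (Fin.castLE hn v)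

lemma resAsg_surjective (hn : n' ≤ n) :
    Function.Surjective (resAsg hn : (Fin n → Bool) → (Fin n' → Bool)) := by
  intro τ
  refine ⟨fun v => if h : (v : ℕ) < n' then τ ⟨v, h⟩ else false, ?_⟩
  funext v
  simp [resAsg]

lemma ocLE_sat (hn : n' ≤ n) (σ : Fin n → Bool) (c : OC k (Fin n')) :
    osat (resAsg hn σ) c ↔ osat σ (ocLE hn c) := Iff.rfl

/-- Restriction inequality: a satisfiable formula on `n` variables stays satisfiable after
deleting the clauses that use a variable outside the first `n'`; the kept clauses are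
independent uniform proper clauses on `n'` variables, and more than `s` clauses are deleted
only with the binomial tail probability `tail (1 - q) m (s + 1)`, where
`q = n'.descFactorial k / n.descFactorial k` is the probability that a uniform proper clause on
`n` variables uses only the first `n'` variables. -/
theorem restrict_upper (hk : k ≤ n') (hn : n' ≤ n) (m s : ℕ) :
    satProb k n m ≤ satProb k n' (m - s) +
      tail (1 - (n'.descFactorial k : ℝ) / (n.descFactorial k : ℝ)) m (s + 1) := by
  classical
  have hne' : Nonempty (OC k (Fin n')) := OC_nonempty (by simpa using hk)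
  have hne : Nonempty (OC k (Fin n)) := OC_nonempty (by simp; omega)
  have hO' : (0 : ℝ) < Fintype.card (OC k (Fin n')) := by exact_mod_cast Fintype.card_pos
  have hO : (0 : ℝ) < Fintype.card (OC k (Fin n)) := by exact_mod_cast Fintype.card_pos
  set ρ : ℝ := (Fintype.card (OC k (Fin n')) : ℝ) / Fintype.card (OC k (Fin n)) with hρ
  have hρeq : ρ = (n'.descFactorial k : ℝ) / (n.descFactorial k : ℝ) := by
    rw [hρ, card_OC, card_OC, Fintype.card_fin, Fintype.card_fin]
    push_cast
    rw [mul_div_mul_right _ _ (by positivity)]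
  have hρ0 : 0 ≤ ρ := by positivity
  have hρ1 : ρ ≤ 1 := by
    rw [hρ, div_le_one hO]
    exact_mod_cast Fintype.card_le_of_injective _ (ocLE_injective (k := k) hn)
  have hdom : ∀ c, ρ * push (ocLE hn : OC k (Fin n') → OC k (Fin n)) (unif (OC k (Fin n'))) c ≤
      unif (OC k (Fin n)) c := by
    intro c
    have h1 : push (ocLE hn : OC k (Fin n') → OC k (Fin n)) (unif (OC k (Fin n'))) c ≤
        (Fintype.card (OC k (Fin n')) : ℝ)⁻¹ := by
      unfold push unif
      rw [Finset.sum_const, nsmul_eq_mul]
      have : (0 : ℝ) ≤ (Fintype.card (OC k (Fin n')) : ℝ)⁻¹ := by positivity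
      refine mul_le_of_le_one_left this ?_
      rw [Nat.cast_le_one]
      refine Finset.card_le_one.mpr fun a ha b hb => ocLE_injective hn ?_
      simp only [Finset.mem_filter, Finset.mem_univ, true_and] at ha hb
      rw [ha, hb]
    calc ρ * push (ocLE hn : OC k (Fin n') → OC k (Fin n)) (unif (OC k (Fin n'))) c
        ≤ ρ * (Fintype.card (OC k (Fin n')) : ℝ)⁻¹ := mul_le_mul_of_nonneg_left h1 hρ0
      _ = unif (OC k (Fin n)) c := by
        unfold unif; rw [hρ]; field_simp
  have hsum₁ : ∑ c, push (ocLE hn : OC k (Fin n') → OC k (Fin n)) (unif (OC k (Fin n'))) c = 1 := by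
    rw [sum_push]; exact sum_unif
  have h1 := mix_upper (osat (k := k) (V := Fin n)) (unif (OC k (Fin n)))
    (push (ocLE hn : OC k (Fin n') → OC k (Fin n)) (unif (OC k (Fin n')))) ρ hρ0 hρ1
    (push_nonneg _ _ (fun _ => unif_nonneg _)) hdom hsum₁ sum_unif_le m s Set.univ
  -- transport to `n'` variables through the intermediate satisfaction relation
  have h2 : gl (osat (k := k) (V := Fin n))
      (List.replicate (m - s) (push (ocLE hn : OC k (Fin n') → OC k (Fin n))
        (unif (OC k (Fin n'))))) Set.univ =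
      gl (osat (k := k) (V := Fin n')) (List.replicate (m - s) (unif (OC k (Fin n'))))
        Set.univ := by
    have a1 := gl_transport_replicate (osat (k := k) (V := Fin n))
      (fun (σ : Fin n → Bool) (c : OC k (Fin n')) => osat σ (ocLE hn c)) id (ocLE hn)
      (fun σ c => Iff.rfl) (unif (OC k (Fin n'))) (m - s) Set.univ
    have a2 := gl_transport_replicate (osat (k := k) (V := Fin n'))
      (fun (σ : Fin n → Bool) (c : OC k (Fin n')) => osat σ (ocLE hn c)) (resAsg hn) id
      (fun σ c => ocLE_sat hn σ c) (unif (OC k (Fin n'))) (m - s) Set.univ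
    rw [Set.image_id] at a1
    have e1 : resAsg hn '' (Set.univ : Set (Fin n → Bool)) = Set.univ :=
      Set.image_univ_of_surjective (resAsg_surjective hn)
    have e2 : push (id : OC k (Fin n') → OC k (Fin n')) (unif (OC k (Fin n'))) =
        unif (OC k (Fin n')) := by
      funext c
      simp only [push, unif, id, Finset.sum_const, nsmul_eq_mul]
      have hc : (Finset.univ.filter (fun x : OC k (Fin n') => x = c)).card = 1 := by
        rw [Finset.card_eq_one]
        exact ⟨c, by ext x; simp⟩
      rw [hc]
      simp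
    rw [e1, e2] at a2
    rw [a1, a2]
  rw [satProb_eq_oc, satProb_eq_oc, ← hρeq, ← h2]
  exact h1

/-- The probability that a uniform proper clause on `n` variables uses a variable outside the
first `n'` is at most `k (n - n' + k) / n`. -/
lemma one_sub_ratio_le (hk : k ≤ n') (hn : n' ≤ n) :
    1 - (n'.descFactorial k : ℝ) / (n.descFactorial k : ℝ) ≤
      (k : ℝ) * ((n : ℝ) - n' + k) / n := by
  rcases Nat.eq_zero_or_pos k with h0 | h0
  · subst h0; simp
  have hnpos : 0 < n := by omega
  have hNpos : (0 : ℝ) < n := by exact_mod_cast hnpos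
  have hn'r : (n' : ℝ) ≤ n := by exact_mod_cast hn
  have hkr : (k : ℝ) ≤ n' := by exact_mod_cast hk
  have hk1 : (1 : ℝ) ≤ k := by exact_mod_cast h0
  have h1 : ((n' + 1 - k : ℕ) : ℝ) ^ k ≤ (n'.descFactorial k : ℝ) := by
    exact_mod_cast Nat.pow_sub_le_descFactorial n' k
  have h2 : ((n' + 1 - k : ℕ) : ℝ) = (n' : ℝ) + 1 - k := by
    rw [Nat.cast_sub (by omega)]; push_cast; ring
  have hD : (n.descFactorial k : ℝ) ≤ (n : ℝ) ^ k := by
    exact_mod_cast Nat.descFactorial_le_pow n k
  have hDpos : (0 : ℝ) < (n.descFactorial k : ℝ) := by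
    exact_mod_cast Nat.descFactorial_pos.mpr (le_trans hk hn)
  set x : ℝ := ((n : ℝ) - n' + k - 1) / n with hx
  have hx0 : 0 ≤ x := by
    rw [hx]; exact div_nonneg (by linarith) hNpos.le
  have hx1 : x ≤ 1 := by
    rw [hx, div_le_one hNpos]; linarith
  have h3 : (1 + -x) ^ k ≤ (n'.descFactorial k : ℝ) / (n.descFactorial k : ℝ) := by
    have e : (1 + -x) = ((n' : ℝ) + 1 - k) / n := by
      rw [hx]; field_simp; ring
    rw [e, div_pow, ← h2]
    calc ((n' + 1 - k : ℕ) : ℝ) ^ k / (n : ℝ) ^ k
        ≤ (n'.descFactorial k : ℝ) / (n : ℝ) ^ k :=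
          div_le_div_of_nonneg_right h1 (by positivity)
      _ ≤ (n'.descFactorial k : ℝ) / (n.descFactorial k : ℝ) :=
          div_le_div_of_nonneg_left (by positivity) hDpos hD
  have h4 : 1 + (k : ℝ) * (-x) ≤ (1 + -x) ^ k := one_add_mul_le_pow (by linarith) k
  have h5 : (k : ℝ) * x ≤ (k : ℝ) * ((n : ℝ) - n' + k) / n := by
    rw [hx, mul_div_assoc]
    refine mul_le_mul_of_nonneg_left ?_ (by positivity)
    exact div_le_div_of_nonneg_right (by linarith) hNpos.le
  linarith

end Restrict

end Vale.Agent.Lib.P170
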