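import Vale.Agent.Lib.P170.Main
import Vale.Agent.Lib.P170.helper66.Restrict

namespace Vale.Agent.Lib.P170

/-- (R) A sharp threshold sequence of random `k`-SAT cannot rise quickly: for every `ε > 0`
there are `δ > 0` and `N` with `r n' ≥ r n - ε` whenever `n ≥ N` and `(1 - δ) n ≤ n' ≤ n`. -/
theorem scale_R (k : ℕ) (r : ℕ → ℝ) (hr : IsThresholdSeq k r) (ε : ℝ) (hε : 0 < ε) :
    ∃ δ : ℝ, 0 < δ ∧ δ ≤ 1 / 2 ∧ ∃ N : ℕ, ∀ n n' : ℕ, N ≤ n → (1 - δ) * (n : ℝ) ≤ n' →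
      n' ≤ n → r n - ε ≤ r n' := by
  obtain ⟨C₀, N₀, hC₀⟩ := thr_bdd hr
  set C : ℝ := max C₀ 0 + 1 with hC
  have hCpos : 0 < C := by have := le_max_right C₀ 0; linarith
  have hC₀C : C₀ ≤ C := by have := le_max_left C₀ 0; linarith
  obtain ⟨N₂, hN₂⟩ := thr_pos hr (ε / 4) (by positivity)
  have hup := (hr (ε / 4) (by positivity)).1
  have hdn := (hr (ε / 4) (by positivity)).2
  obtain ⟨N₃, hN₃⟩ := Filter.eventually_atTop.mp
    (hup.eventually (lt_mem_nhds (show (3 / 4 : ℝ) < 1 by norm_num)))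
  obtain ⟨N₄, hN₄⟩ := Filter.eventually_atTop.mp
    (hdn.eventually (gt_mem_nhds (show (0 : ℝ) < 1 / 2 by norm_num)))
  set δ : ℝ := min (1 / 2) (ε / (16 * C * (k + 1))) with hδ
  have hδpos : 0 < δ := by
    rw [hδ]; exact lt_min (by norm_num) (by positivity)
  have hδhalf : δ ≤ 1 / 2 := min_le_left _ _
  have hδε : δ ≤ ε / (16 * C * (k + 1)) := min_le_right _ _
  set M : ℕ := max (max N₂ N₄) k with hM
  refine ⟨δ, hδpos, hδhalf, max (max N₀ N₃) (max (2 * M) (max ⌈(k : ℝ) / δ⌉₊ 1)),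
    fun n n' hn hlow hle => ?_⟩
  by_contra hcon
  push Not at hcon
  have b₀ : N₀ ≤ n := le_trans (le_trans (le_max_left _ _) (le_max_left _ _)) hn
  have b₃ : N₃ ≤ n := le_trans (le_trans (le_max_right _ _) (le_max_left _ _)) hn
  have b₂ : 2 * M ≤ n := le_trans (le_trans (le_max_left _ _) (le_max_right _ _)) hn
  have b₅ : ⌈(k : ℝ) / δ⌉₊ ≤ n :=
    le_trans (le_trans (le_trans (le_max_left _ _) (le_max_right _ _)) (le_max_right _ _)) hn
  have b₁ : 1 ≤ n :=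
    le_trans (le_trans (le_trans (le_max_right _ _) (le_max_right _ _)) (le_max_right _ _)) hn
  have hnpos : (0 : ℝ) < n := by exact_mod_cast b₁
  have hn'le : (n' : ℝ) ≤ n := by exact_mod_cast hle
  have hn'half : (n : ℝ) / 2 ≤ n' := by nlinarith
  have hMn' : M ≤ n' := by
    have h1 : ((2 * M : ℕ) : ℝ) ≤ n := by exact_mod_cast b₂
    have h2 : (M : ℝ) ≤ n' := by push_cast at h1; linarith
    exact_mod_cast h2
  have c₂ : N₂ ≤ n' := le_trans (le_trans (le_max_left _ _) (le_max_left _ _)) hMn'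
  have c₄ : N₄ ≤ n' := le_trans (le_trans (le_max_right _ _) (le_max_left _ _)) hMn'
  have ck : k ≤ n' := le_trans (le_max_right _ _) hMn'
  have hkδ : (k : ℝ) ≤ δ * n := by
    have h1 : (k : ℝ) / δ ≤ n := le_trans (Nat.le_ceil _) (by exact_mod_cast b₅)
    rw [div_le_iff₀ hδpos] at h1
    linarith
  have hn'pos : (0 : ℝ) < n' := by linarith
  have hP : 3 / 4 < satProb k n ⌊(r n - ε / 4) * (n : ℝ)⌋₊ := hN₃ n b₃
  have hP' : satProb k n' ⌊(r n' + ε / 4) * (n' : ℝ)⌋₊ < 1 / 2 := hN₄ n' c₄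
  have hpos' : 0 < (r n' + ε / 4) * (n' : ℝ) := hN₂ n' c₂
  have hrpos' : 0 < r n' + ε / 4 := by
    by_contra h
    push Not at h
    have := mul_nonpos_of_nonpos_of_nonneg h hn'pos.le
    linarith
  set m := ⌊(r n - ε / 4) * (n : ℝ)⌋₊ with hm
  set m' := ⌊(r n' + ε / 4) * (n' : ℝ)⌋₊ with hm'
  have hm'le : (m' : ℝ) ≤ (r n' + ε / 4) * n' := Nat.floor_le hpos'.le
  have hm'lt : (m' : ℝ) < (r n - 3 * ε / 4) * n := by
    have h1 : (r n' + ε / 4) * (n' : ℝ) ≤ (r n' + ε / 4) * n :=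
      mul_le_mul_of_nonneg_left hn'le hrpos'.le
    have h2 : (r n' + ε / 4) * (n : ℝ) < (r n - 3 * ε / 4) * n :=
      mul_lt_mul_of_pos_right (by linarith) hnpos
    linarith
  have hmgt : (r n - ε / 4) * (n : ℝ) < (m : ℝ) + 1 := Nat.lt_floor_add_one _
  have hmle : (m : ℝ) ≤ C * n := by
    have h0 : 0 ≤ (r n - ε / 4) * (n : ℝ) := by
      have : 0 < r n - ε / 4 := by linarith
      positivity
    calc (m : ℝ) ≤ (r n - ε / 4) * n := Nat.floor_le h0
      _ ≤ C * n := mul_le_mul_of_nonneg_right (by linarith [hC₀ n b₀]) hnpos.le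
  have hgap : ε / 2 * (n : ℝ) < (m : ℝ) - m' + 1 := by linarith
  have hεn : 0 < ε / 2 * (n : ℝ) := by positivity
  have hm'm : m' ≤ m := by
    have h1 : (m' : ℝ) < (m : ℝ) + 1 := by linarith
    have h2 : m' < m + 1 := by exact_mod_cast h1
    omega
  set s := m - m' with hs
  have hscast : ((s + 1 : ℕ) : ℝ) = (m : ℝ) - m' + 1 := by
    rw [hs]; push_cast [Nat.cast_sub hm'm]; ring
  have hms : m - s = m' := by omega
  have hres := restrict_upper ck hle m s
  rw [hms] at hres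
  set x : ℝ := 1 - (n'.descFactorial k : ℝ) / (n.descFactorial k : ℝ) with hx
  have hq1 : (n'.descFactorial k : ℝ) / (n.descFactorial k : ℝ) ≤ 1 := by
    have hD : (0 : ℝ) < (n.descFactorial k : ℝ) := by
      exact_mod_cast Nat.descFactorial_pos.mpr (le_trans ck hle)
    rw [div_le_one hD]
    exact_mod_cast Nat.descFactorial_le k hle
  have hq0 : (0 : ℝ) ≤ (n'.descFactorial k : ℝ) / (n.descFactorial k : ℝ) := by positivity
  have hx0 : 0 ≤ x := by rw [hx]; linarith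
  have hx1 : x ≤ 1 := by rw [hx]; linarith
  have htail : 1 / 4 < tail x m (s + 1) := by linarith
  have hmark := tail_markov hx0 hx1 m (s + 1)
  have hxle : x ≤ 2 * k * δ := by
    have h1 : x ≤ (k : ℝ) * ((n : ℝ) - n' + k) / n := one_sub_ratio_le ck hle
    have h2 : (n : ℝ) - n' + k ≤ 2 * δ * n := by linarith
    calc x ≤ (k : ℝ) * ((n : ℝ) - n' + k) / n := h1
      _ ≤ (k : ℝ) * (2 * δ * n) / n :=
          div_le_div_of_nonneg_right (mul_le_mul_of_nonneg_left h2 (by positivity)) hnpos.le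
      _ = 2 * k * δ := by field_simp
  have hmx : (m : ℝ) * x ≤ C * n * (2 * k * δ) :=
    mul_le_mul hmle hxle hx0 (by positivity)
  have hkδε : 2 * (k : ℝ) * δ * C ≤ ε / 8 := by
    have h1 : δ * (16 * C * (k + 1)) ≤ ε := by rwa [le_div_iff₀ (by positivity)] at hδε
    have h2 : 0 < δ * C := mul_pos hδpos hCpos
    nlinarith
  have h7 : C * n * (2 * k * δ) ≤ ε / 8 * n := by
    have := mul_le_mul_of_nonneg_right hkδε hnpos.le
    linarith
  have hs1pos : (0 : ℝ) < ((s + 1 : ℕ) : ℝ) := by positivity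
  have h6 : (1 / 4 : ℝ) * ((s + 1 : ℕ) : ℝ) < tail x m (s + 1) * ((s + 1 : ℕ) : ℝ) :=
    mul_lt_mul_of_pos_right htail hs1pos
  rw [hscast] at h6 hmark
  linarith

end Vale.Agent.Lib.P170
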